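import Vale.Agent.P038.H310.Gap

/-!
# Arc-minimal counterexamples expand every set
-/

namespace Vale.Agent.P038.H310

open Finset

variable {V : Type*} [Fintype V]

/-- `D` is a counterexample. -/
def CE (D : OGraph V) : Prop := ∀ v, (N2 D v).card < (N1 D v).card

omit [Fintype V] in
/-- Remove the arcs which go from `X` to the outside of `K`. -/
def cutG (D : OGraph V) (X K : Finset V) : OGraph V where
  arc u v := D.arc u v ∧ (u ∈ X → v ∈ K)
  loopless v h := D.loopless v h.1
  asymm u v h h' := D.asymm u v h.1 h'.1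

theorem expand (D : OGraph V) (hCE : CE D)
    (hmin : ∀ X K : Finset V, (∃ u ∈ X, ∃ v, D.arc u v ∧ v ∉ K) → ¬ CE (cutG D X K))
    (X : Finset V) (hX : nb D X ≠ X) : hb D (nb D X) < hb D X := by
  classical
  by_contra hcon
  rw [not_lt] at hcon
  set L := nb D X \ X with hLdef
  let dd : Finset V → ℤ := fun T => ((nb D T \ X).card : ℤ) - 2 * (T.card : ℤ)
  have hXn := sub_nb D X
  have hLne : L.Nonempty := by
    rw [hLdef, Finset.sdiff_nonempty]
    intro h
    exact hX (Finset.Subset.antisymm h hXn)
  have hL0 : 0 ≤ dd L := by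
    have e1 : nb D L \ X = nb D (nb D X) \ X := by
      ext z
      rw [Finset.mem_sdiff, Finset.mem_sdiff]
      constructor
      · rintro ⟨h1, h2⟩
        exact ⟨nb_mono D Finset.sdiff_subset h1, h2⟩
      · rintro ⟨h1, h2⟩
        refine ⟨?_, h2⟩
        obtain ⟨y, hy, hyz⟩ := mem_nb.1 h1
        by_cases hyX : y ∈ X
        · have hz : z ∈ nb D X := mem_nb.2 ⟨y, hyX, hyz⟩
          exact sub_nb D L (Finset.mem_sdiff.2 ⟨hz, h2⟩)
        · exact mem_nb.2 ⟨y, Finset.mem_sdiff.2 ⟨hy, hyX⟩, hyz⟩
    have e2 := Finset.card_sdiff_of_subset (hXn.trans (sub_nb D (nb D X)))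
    have e3 := Finset.card_le_card (hXn.trans (sub_nb D (nb D X)))
    have e4 := Finset.card_sdiff_of_subset hXn
    have e5 := Finset.card_le_card hXn
    simp only [dd]
    rw [e1, e2]
    have e6 : L.card = (nb D X).card - X.card := e4
    unfold hb at hcon
    omega
  have hd0 : dd ∅ = 0 := by
    have : nb D ∅ = ∅ := by
      ext z
      simp [mem_nb]
    simp [dd, this]
  obtain ⟨T, hT, hTmin⟩ := Finset.exists_min_image L.ssubsets dd
    ⟨∅, Finset.mem_ssubsets.2 (Finset.empty_ssubset.2 hLne)⟩
  rw [Finset.mem_ssubsets] at hT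
  have hTL : T ⊆ L := hT.1
  have hTmin' : ∀ D' : Finset V, D' ⊆ L \ T → dd T ≤ dd (T ∪ D') := by
    intro D' hD'
    by_cases h : T ∪ D' = L
    · rw [h]
      have := hTmin ∅ (Finset.mem_ssubsets.2 (Finset.empty_ssubset.2 hLne))
      omega
    · apply hTmin
      rw [Finset.mem_ssubsets]
      exact Finset.ssubset_iff_subset_ne.2
        ⟨Finset.union_subset hTL (hD'.trans Finset.sdiff_subset), h⟩
  have hE : ∀ D' : Finset V, D' ⊆ L \ T → 2 * D'.card ≤ (nb D D' \ (nb D T ∪ X)).card := by
    intro D' hD'
    have h1 := hTmin' D' hD'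
    have h2 : nb D (T ∪ D') \ X = (nb D T \ X) ∪ (nb D D' \ (nb D T ∪ X)) := by
      rw [nb_union]
      ext z
      simp only [Finset.mem_sdiff, Finset.mem_union]
      tauto
    have h3 : Disjoint (nb D T \ X) (nb D D' \ (nb D T ∪ X)) := by
      rw [Finset.disjoint_left]
      intro z
      simp only [Finset.mem_sdiff, Finset.mem_union]
      tauto
    have h4 : Disjoint T D' := by
      rw [Finset.disjoint_left]
      intro z hz hz'
      exact (Finset.mem_sdiff.1 (hD' hz')).2 hz
    simp only [dd] at h1
    rw [h2, Finset.card_union_of_disjoint h3, Finset.card_union_of_disjoint h4] at h1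
    push_cast at h1
    omega
  -- the smaller graph
  refine hmin X (X ∪ T) ?_ ?_
  · obtain ⟨l, hlL, hlT⟩ := Finset.exists_of_ssubset hT
    rw [hLdef, Finset.mem_sdiff] at hlL
    obtain ⟨y, hy, hyl⟩ := mem_nb.1 hlL.1
    refine ⟨y, hy, l, ?_, ?_⟩
    · rcases hyl with rfl | h
      · exact absurd hy hlL.2
      · exact h
    · rw [Finset.mem_union]
      rintro (h | h)
      · exact hlL.2 h
      · exact hlT h
  · intro y
    by_cases hy : y ∈ X
    · set Dy := N1 D y \ (X ∪ T) with hDy
      have hDyL : Dy ⊆ L \ T := by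
        intro z hz
        rw [hDy, Finset.mem_sdiff, Finset.mem_union, mem_N1] at hz
        rw [Finset.mem_sdiff, hLdef, Finset.mem_sdiff]
        exact ⟨⟨mem_nb.2 ⟨y, hy, Or.inr hz.1⟩, fun h => hz.2 (Or.inl h)⟩,
          fun h => hz.2 (Or.inr h)⟩
      have hEy := hE Dy hDyL
      set E := nb D Dy \ (nb D T ∪ X) with hEdef
      have a1 : N1 (cutG D X (X ∪ T)) y = N1 D y \ Dy := by
        ext z
        rw [Finset.mem_sdiff, mem_N1, mem_N1, hDy, Finset.mem_sdiff, mem_N1]
        simp only [cutG]
        tauto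
      have a2 : N2 (cutG D X (X ∪ T)) y ⊆ (N2 D y ∪ Dy) \ E := by
        intro x hx
        rw [mem_N2] at hx
        obtain ⟨hx1, hx2, u, hu1, hu2⟩ := hx
        simp only [cutG] at hx2 hu1 hu2
        rw [Finset.mem_sdiff]
        constructor
        · rw [Finset.mem_union]
          by_cases h : D.arc y x
          · right
            rw [hDy, Finset.mem_sdiff, mem_N1]
            exact ⟨h, fun h' => hx2 ⟨h, fun _ => h'⟩⟩
          · left
            exact mem_N2.2 ⟨hx1, h, u, hu1.1, hu2.1⟩
        · rw [hEdef, Finset.mem_sdiff, Finset.mem_union]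
          rintro ⟨-, h⟩
          apply h
          have hu := hu1.2 hy
          rcases Finset.mem_union.1 hu with hu | hu
          · rcases Finset.mem_union.1 (hu2.2 hu) with h' | h'
            · exact Or.inr h'
            · exact Or.inl (sub_nb D T h')
          · exact Or.inl (mem_nb.2 ⟨u, hu, Or.inr hu2.1⟩)
      have a3 : E ⊆ N2 D y ∪ Dy := by
        intro z hz
        rw [hEdef, Finset.mem_sdiff, Finset.mem_union] at hz
        obtain ⟨hz1, hz2⟩ := hz
        obtain ⟨c, hc, hcz⟩ := mem_nb.1 hz1
        rw [Finset.mem_union]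
        by_cases hyz : D.arc y z
        · right
          rw [hDy, Finset.mem_sdiff, mem_N1, Finset.mem_union]
          refine ⟨hyz, ?_⟩
          rintro (h | h)
          · exact hz2 (Or.inr h)
          · exact hz2 (Or.inl (sub_nb D T h))
        · left
          have hc' : D.arc y c := by
            rw [hDy, Finset.mem_sdiff, mem_N1] at hc
            exact hc.1
          rcases hcz with rfl | hcz
          · exact absurd hc' hyz
          · refine mem_N2.2 ⟨?_, hyz, c, hc', hcz⟩
            rintro rfl
            exact hz2 (Or.inr hy)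
      have b1 := Finset.card_le_card a2
      have b2 := Finset.card_sdiff_of_subset a3
      have b3 := Finset.card_le_card a3
      have b4 := Finset.card_union_le (N2 D y) Dy
      have b5 : Dy ⊆ N1 D y := Finset.sdiff_subset
      have b6 := Finset.card_sdiff_of_subset b5
      have b7 := Finset.card_le_card b5
      have b8 := hCE y
      rw [a1]
      omega
    · have a1 : N1 (cutG D X (X ∪ T)) y = N1 D y := by
        ext z
        rw [mem_N1, mem_N1]
        simp only [cutG]
        tauto
      have a2 : N2 (cutG D X (X ∪ T)) y ⊆ N2 D y := by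
        intro x hx
        rw [mem_N2] at hx ⊢
        obtain ⟨hx1, hx2, u, hu1, hu2⟩ := hx
        simp only [cutG] at hx2 hu1 hu2
        exact ⟨hx1, fun h => hx2 ⟨h, fun h' => absurd h' hy⟩, u, hu1.1, hu2.1⟩
      rw [a1]
      exact lt_of_le_of_lt (Finset.card_le_card a2) (hCE y)

end Vale.Agent.P038.H310
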