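import Vale.Agent.P038.Defs
import Mathlib.Combinatorics.Hall.Basic

/-!
# Closed out-neighbourhoods, boundaries and the gap inequality
-/

namespace Vale.Agent.P038.H310

open Finset

variable {V : Type*} [Fintype V]

open Classical in
/-- The closed out-neighbourhood of a set of vertices. -/
noncomputable def nb (D : OGraph V) (S : Finset V) : Finset V :=
  Finset.univ.filter fun x => ∃ y ∈ S, y = x ∨ D.arc y x

theorem mem_nb {D : OGraph V} {S : Finset V} {x : V} :
    x ∈ nb D S ↔ ∃ y ∈ S, y = x ∨ D.arc y x := by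
  classical
  simp [nb]

theorem sub_nb (D : OGraph V) (S : Finset V) : S ⊆ nb D S :=
  fun x hx => mem_nb.2 ⟨x, hx, Or.inl rfl⟩

theorem nb_mono (D : OGraph V) {S T : Finset V} (h : S ⊆ T) : nb D S ⊆ nb D T := by
  intro x hx
  obtain ⟨y, hy, hyx⟩ := mem_nb.1 hx
  exact mem_nb.2 ⟨y, h hy, hyx⟩

/-- The size of the outer boundary. -/
noncomputable def hb (D : OGraph V) (S : Finset V) : ℤ := ((nb D S).card : ℤ) - (S.card : ℤ)

theorem hb_nonneg (D : OGraph V) (S : Finset V) : 0 ≤ hb D S := by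
  have := Finset.card_le_card (sub_nb D S)
  unfold hb
  omega

open Classical in
/-- The erosion of a family of sets over the closed in-neighbourhoods. -/
noncomputable def er (D : OGraph V) (P : V → Finset V) (z : V) : Finset V :=
  Finset.univ.filter fun x => ∀ a, (a = z ∨ D.arc a z) → x ∈ P a

theorem mem_er {D : OGraph V} {P : V → Finset V} {z x : V} :
    x ∈ er D P z ↔ ∀ a, (a = z ∨ D.arc a z) → x ∈ P a := by
  classical
  simp [er]

section Dec

variable [DecidableEq V] (D : OGraph V)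

theorem nb_union (S T : Finset V) : nb D (S ∪ T) = nb D S ∪ nb D T := by
  ext x
  simp only [mem_nb, Finset.mem_union]
  constructor
  · rintro ⟨y, hy | hy, h⟩
    · exact Or.inl ⟨y, hy, h⟩
    · exact Or.inr ⟨y, hy, h⟩
  · rintro (⟨y, hy, h⟩ | ⟨y, hy, h⟩)
    · exact ⟨y, Or.inl hy, h⟩
    · exact ⟨y, Or.inr hy, h⟩

theorem hb_submod (S T : Finset V) : hb D (S ∪ T) + hb D (S ∩ T) ≤ hb D S + hb D T := by
  have h1 := Finset.card_union_add_card_inter S T
  have h2 := Finset.card_union_add_card_inter (nb D S) (nb D T)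
  have h3 : (nb D (S ∩ T)).card ≤ (nb D S ∩ nb D T).card :=
    Finset.card_le_card (Finset.subset_inter (nb_mono D Finset.inter_subset_left)
      (nb_mono D Finset.inter_subset_right))
  unfold hb
  rw [nb_union]
  omega

/-- The minimum of the boundary over the sets between `P ∪ (W ∩ Q)` and `Q`. -/
noncomputable def kk (P Q W : Finset V) : ℤ :=
  sInf {m : ℤ | ∃ Y, P ⊆ Y ∧ W ∩ Q ⊆ Y ∧ Y ⊆ Q ∧ hb D Y = m}

theorem kk_bdd (P Q W : Finset V) :
    BddBelow {m : ℤ | ∃ Y, P ⊆ Y ∧ W ∩ Q ⊆ Y ∧ Y ⊆ Q ∧ hb D Y = m} := by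
  refine ⟨0, ?_⟩
  rintro m ⟨Y, -, -, -, rfl⟩
  exact hb_nonneg D Y

theorem kk_le {P Q W Y : Finset V} (h1 : P ⊆ Y) (h2 : W ∩ Q ⊆ Y) (h3 : Y ⊆ Q) :
    kk D P Q W ≤ hb D Y :=
  csInf_le (kk_bdd D P Q W) ⟨Y, h1, h2, h3, rfl⟩

theorem kk_mem {P Q : Finset V} (hPQ : P ⊆ Q) (W : Finset V) :
    ∃ Y, P ⊆ Y ∧ W ∩ Q ⊆ Y ∧ Y ⊆ Q ∧ hb D Y = kk D P Q W :=
  Int.csInf_mem (s := {m : ℤ | ∃ Y, P ⊆ Y ∧ W ∩ Q ⊆ Y ∧ Y ⊆ Q ∧ hb D Y = m})
    ⟨hb D Q, Q, hPQ, Finset.inter_subset_right, subset_rfl, rfl⟩ (kk_bdd D P Q W)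

theorem kk_step {P Q m M : Finset V} (hPQ : P ⊆ Q) (hmM : m ⊆ M) (hmP : m ⊆ P) (hMQ : M ⊆ Q)
    {b : V} (hb' : b ∈ M) (W : Finset V) :
    kk D P Q (insert b W) + kk D m M W ≤ kk D m M (insert b W) + kk D P Q W := by
  obtain ⟨Y, h1, h2, h3, h4⟩ := kk_mem D hmM (insert b W)
  obtain ⟨Z, g1, g2, g3, g4⟩ := kk_mem D hPQ W
  have e1 : kk D P Q (insert b W) ≤ hb D (Y ∪ Z) := by
    apply kk_le
    · exact g1.trans Finset.subset_union_right
    · intro x hx
      rw [Finset.mem_inter, Finset.mem_insert] at hx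
      rcases hx with ⟨rfl | hx, hxQ⟩
      · exact Finset.mem_union_left _
          (h2 (Finset.mem_inter.2 ⟨Finset.mem_insert_self _ _, hb'⟩))
      · exact Finset.mem_union_right _ (g2 (Finset.mem_inter.2 ⟨hx, hxQ⟩))
    · exact Finset.union_subset (h3.trans hMQ) g3
  have e2 : kk D m M W ≤ hb D (Y ∩ Z) := by
    apply kk_le
    · exact Finset.subset_inter h1 (hmP.trans g1)
    · intro x hx
      rw [Finset.mem_inter] at hx
      exact Finset.mem_inter.2 ⟨h2 (Finset.mem_inter.2 ⟨Finset.mem_insert_of_mem hx.1, hx.2⟩),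
        g2 (Finset.mem_inter.2 ⟨hx.1, hMQ hx.2⟩)⟩
    · exact Finset.inter_subset_left.trans h3
  have e3 := hb_submod D Y Z
  omega

theorem kk_mono {P Q : Finset V} (hPQ : P ⊆ Q) (b : V) (W : Finset V) :
    kk D P Q W ≤ kk D P Q (insert b W) := by
  obtain ⟨Y, h1, h2, h3, h4⟩ := kk_mem D hPQ (insert b W)
  rw [← h4]
  refine kk_le D h1 ?_ h3
  intro x hx
  rw [Finset.mem_inter] at hx
  exact h2 (Finset.mem_inter.2 ⟨Finset.mem_insert_of_mem hx.1, hx.2⟩)

theorem kk_same {P Q : Finset V} (hPQ : P ⊆ Q) {b : V} (hb' : b ∈ Q → b ∈ P) (W : Finset V) :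
    kk D P Q (insert b W) ≤ kk D P Q W := by
  obtain ⟨Y, h1, h2, h3, h4⟩ := kk_mem D hPQ W
  rw [← h4]
  refine kk_le D h1 ?_ h3
  intro x hx
  rw [Finset.mem_inter, Finset.mem_insert] at hx
  rcases hx with ⟨rfl | hx, hxQ⟩
  · exact h1 (hb' hxQ)
  · exact h2 (Finset.mem_inter.2 ⟨hx, hxQ⟩)

theorem kk_univ {P Q : Finset V} (hPQ : P ⊆ Q) : kk D P Q Finset.univ = hb D Q := by
  obtain ⟨Y, h1, h2, h3, h4⟩ := kk_mem D hPQ Finset.univ
  rw [Finset.univ_inter] at h2
  rw [← h4, Finset.Subset.antisymm h3 h2]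

theorem kk_empty {P Q : Finset V} (hPQ : P ⊆ Q)
    (hR : ∀ Y, P ⊆ Y → Y ⊆ Q → hb D P ≤ hb D Y) : kk D P Q ∅ = hb D P := by
  apply le_antisymm
  · exact kk_le D subset_rfl (by simp) hPQ
  · obtain ⟨Y, h1, h2, h3, h4⟩ := kk_mem D hPQ ∅
    rw [← h4]
    exact hR Y h1 h3

omit [DecidableEq V] in
theorem er_mono {P Q : V → Finset V} (h : ∀ a, P a ⊆ Q a) (z : V) : er D P z ⊆ er D Q z := by
  intro x hx
  rw [mem_er] at hx ⊢
  exact fun a ha => h a (hx a ha)

omit [DecidableEq V] in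
theorem er_sub {P : V → Finset V} {a z : V} (h : a = z ∨ D.arc a z) : er D P z ⊆ P a := by
  intro x hx
  exact mem_er.1 hx a h

/-- Row optimality is inherited by the eroded rows. -/
theorem er_opt {P U : V → Finset V}
    (hR : ∀ a Y, P a ⊆ Y → Y ⊆ U a → hb D (P a) ≤ hb D Y) (z : V) (Y : Finset V)
    (h1 : er D P z ⊆ Y) (h2 : Y ⊆ er D U z) (hPU : ∀ a, P a ⊆ U a) :
    hb D (er D P z) ≤ hb D Y := by
  classical
  have key : ∀ A : Finset V, (∀ a ∈ A, a = z ∨ D.arc a z) →
      hb D (Y.filter fun x => ∀ a ∈ A, x ∈ P a) ≤ hb D Y := by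
    intro A
    induction A using Finset.induction_on with
    | empty => intro _; simp
    | insert a A ha ih =>
      intro hA
      have ih' := ih fun a' ha' => hA a' (Finset.mem_insert_of_mem ha')
      have ha' := hA a (Finset.mem_insert_self a A)
      set F := Y.filter fun x => ∀ a ∈ A, x ∈ P a with hF
      have e1 : (Y.filter fun x => ∀ a' ∈ insert a A, x ∈ P a') = F ∩ P a := by
        ext x
        simp only [hF, Finset.mem_filter, Finset.mem_inter, Finset.forall_mem_insert]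
        tauto
      rw [e1]
      have e2 := hb_submod D F (P a)
      have e3 := hR a (F ∪ P a) Finset.subset_union_right
        (Finset.union_subset ((Finset.filter_subset _ _).trans (h2.trans (er_sub D ha'))) (hPU a))
      omega
  have hk := key (Finset.univ.filter fun a => a = z ∨ D.arc a z) (by simp)
  have e : (Y.filter fun x => ∀ a ∈ Finset.univ.filter (fun a => a = z ∨ D.arc a z), x ∈ P a)
      = er D P z := by
    ext x
    rw [Finset.mem_filter, mem_er]
    constructor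
    · rintro ⟨-, h⟩ a ha
      exact h a (by simpa using ha)
    · intro h
      refine ⟨h1 (mem_er.2 h), fun a ha => h a (by simpa using ha)⟩
  rwa [e] at hk

/-- The gap inequality. -/
theorem gap {P U : V → Finset V} (hPU : ∀ a, P a ⊆ U a)
    (hR : ∀ a Y, P a ⊆ Y → Y ⊆ U a → hb D (P a) ≤ hb D Y)
    (hC : ∀ (b : V) (S : Finset V), (∀ a ∈ S, b ∈ U a ∧ b ∉ P a) →
      ∃ T : Finset V, S.card ≤ T.card ∧
        ∀ z ∈ T, (∃ a ∈ S, a = z ∨ D.arc a z) ∧ b ∈ er D U z) :
    ∑ a, (hb D (U a) - hb D (P a)) ≤ ∑ z, (hb D (er D U z) - hb D (er D P z)) := by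
  classical
  have hmM : ∀ z, er D P z ⊆ er D U z := er_mono D hPU
  have hall : ∀ b : V, ∃ f : {a // b ∈ U a ∧ b ∉ P a} → V, Function.Injective f ∧
      ∀ a : {a // b ∈ U a ∧ b ∉ P a}, ((a : V) = f a ∨ D.arc a (f a)) ∧ b ∈ er D U (f a) := by
    intro b
    let t : {a // b ∈ U a ∧ b ∉ P a} → Finset V := fun a =>
      Finset.univ.filter fun z => ((a : V) = z ∨ D.arc a z) ∧ b ∈ er D U z
    have ht : ∀ s : Finset {a // b ∈ U a ∧ b ∉ P a}, s.card ≤ (s.biUnion t).card := by
      intro s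
      obtain ⟨T, hT1, hT2⟩ := hC b (s.map (Function.Embedding.subtype _)) (by
        intro a ha
        rw [Finset.mem_map] at ha
        obtain ⟨a', -, rfl⟩ := ha
        exact a'.2)
      rw [Finset.card_map] at hT1
      refine hT1.trans (Finset.card_le_card ?_)
      intro z hz
      obtain ⟨⟨a, ha, haz⟩, hbz⟩ := hT2 z hz
      rw [Finset.mem_map] at ha
      obtain ⟨a', ha', rfl⟩ := ha
      rw [Finset.mem_biUnion]
      exact ⟨a', ha', by simp only [t, Finset.mem_filter, Finset.mem_univ, true_and]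
                         exact ⟨haz, hbz⟩⟩
    obtain ⟨f, hf, hf'⟩ := (Finset.all_card_le_biUnion_card_iff_exists_injective t).1 ht
    refine ⟨f, hf, fun a => ?_⟩
    have := hf' a
    simpa [t] using this
  have step : ∀ (b : V) (W : Finset V),
      ∑ a, (kk D (P a) (U a) (insert b W) - kk D (P a) (U a) W) ≤
        ∑ z, (kk D (er D P z) (er D U z) (insert b W) - kk D (er D P z) (er D U z) W) := by
    intro b W
    obtain ⟨f, hf, hf'⟩ := hall b
    set al : V → ℤ := fun a => kk D (P a) (U a) (insert b W) - kk D (P a) (U a) W with hal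
    set ga : V → ℤ := fun z =>
      kk D (er D P z) (er D U z) (insert b W) - kk D (er D P z) (er D U z) W with hga
    have hal0 : ∀ a, ¬ (b ∈ U a ∧ b ∉ P a) → al a ≤ 0 := by
      intro a ha
      have := kk_same D (hPU a) (b := b) (by tauto) W
      simp only [hal]
      omega
    have hga0 : ∀ z, 0 ≤ ga z := by
      intro z
      have := kk_mono D (hmM z) b W
      simp only [hga]
      omega
    have hag : ∀ a : {a // b ∈ U a ∧ b ∉ P a}, al a ≤ ga (f a) := by
      intro a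
      have := kk_step D (hPU a) (hmM (f a)) (er_sub D (hf' a).1) (er_sub D (hf' a).1)
        (hf' a).2 W
      simp only [hal, hga]
      omega
    calc ∑ a, al a ≤ ∑ a ∈ Finset.univ.filter (fun a => b ∈ U a ∧ b ∉ P a), al a := by
          rw [← Finset.sum_filter_add_sum_filter_not Finset.univ (fun a => b ∈ U a ∧ b ∉ P a)]
          have : ∑ a ∈ Finset.univ.filter (fun a => ¬ (b ∈ U a ∧ b ∉ P a)), al a ≤ 0 :=
            Finset.sum_nonpos fun a ha => hal0 a (by simpa using ha)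
          linarith
      _ = ∑ a : {a // b ∈ U a ∧ b ∉ P a}, al a := by
          rw [← Finset.sum_subtype_eq_sum_filter]
          simp
      _ ≤ ∑ a : {a // b ∈ U a ∧ b ∉ P a}, ga (f a) := Finset.sum_le_sum fun a _ => hag a
      _ = ∑ z ∈ Finset.univ.map ⟨f, hf⟩, ga z := by
          rw [Finset.sum_map]
          rfl
      _ ≤ ∑ z, ga z :=
          Finset.sum_le_sum_of_subset_of_nonneg (Finset.subset_univ _) fun z _ _ => hga0 z
  have ind : ∀ W : Finset V,
      ∑ a, (kk D (P a) (U a) W - kk D (P a) (U a) ∅) ≤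
        ∑ z, (kk D (er D P z) (er D U z) W - kk D (er D P z) (er D U z) ∅) := by
    intro W
    induction W using Finset.induction_on with
    | empty => simp
    | insert b W _ ih =>
      have := step b W
      simp only [Finset.sum_sub_distrib] at this ih ⊢
      linarith
  have h := ind Finset.univ
  have e1 : ∀ a, kk D (P a) (U a) Finset.univ = hb D (U a) := fun a => kk_univ D (hPU a)
  have e2 : ∀ a, kk D (P a) (U a) ∅ = hb D (P a) := fun a => kk_empty D (hPU a) (hR a)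
  have e3 : ∀ z, kk D (er D P z) (er D U z) Finset.univ = hb D (er D U z) :=
    fun z => kk_univ D (hmM z)
  have e4 : ∀ z, kk D (er D P z) (er D U z) ∅ = hb D (er D P z) := fun z =>
    kk_empty D (hmM z) fun Y h1 h2 => er_opt D hR z Y h1 h2 hPU
  simpa only [e1, e2, e3, e4] using h

end Dec

end Vale.Agent.P038.H310
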