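import Vale.Agent.P038.H310.GG

/-!
# Seymour's second neighbourhood conjecture
-/

namespace Vale.Agent.P038.H310

open Finset

variable {V : Type*} [Fintype V]

section Count

variable [DecidableEq V]

theorem card_eq_sum_ind (S : Finset V) : (S.card : ℤ) = ∑ b, if b ∈ S then (1 : ℤ) else 0 := by
  simp

theorem two_sums (F H : V → Finset V) :
    ∑ z, ((F z).card : ℤ) + ∑ b, ((H b).card : ℤ) =
      ∑ z, ∑ b, ((if b ∈ F z then (1 : ℤ) else 0) + (if z ∈ H b then (1 : ℤ) else 0)) := by
  simp only [Finset.sum_add_distrib]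
  congr 1
  · exact Finset.sum_congr rfl fun z _ => card_eq_sum_ind (F z)
  · rw [Finset.sum_comm]
    exact Finset.sum_congr rfl fun z _ => card_eq_sum_ind (H z)

variable (V) in
/-- `n² + n`. -/
def KK : ℤ := ∑ z : V, ∑ b : V, ((1 : ℤ) + if z = b then (1 : ℤ) else 0)

theorem count_le (F H : V → Finset V) (h : ∀ z b, b ∈ F z → z ∈ H b → z = b) :
    ∑ z, ((F z).card : ℤ) + ∑ b, ((H b).card : ℤ) ≤ KK V := by
  rw [two_sums, KK]
  refine Finset.sum_le_sum fun z _ => Finset.sum_le_sum fun b _ => ?_
  have := h z b
  by_cases h1 : b ∈ F z <;> by_cases h2 : z ∈ H b <;> by_cases h3 : z = b <;>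
    simp [h1, h2, h3] <;> simp_all

theorem count_ge (F H : V → Finset V) (h : ∀ z b, b ∈ F z ∨ z ∈ H b)
    (h' : ∀ b, b ∈ F b ∧ b ∈ H b) :
    KK V ≤ ∑ z, ((F z).card : ℤ) + ∑ b, ((H b).card : ℤ) := by
  rw [two_sums, KK]
  refine Finset.sum_le_sum fun z _ => Finset.sum_le_sum fun b _ => ?_
  by_cases h3 : z = b
  · subst h3
    simp [(h' z).1, (h' z).2]
  · rcases h z b with h1 | h1
    · simp only [h1, h3, if_true, if_false]
      split_ifs <;> norm_num
    · simp only [h1, h3, if_true, if_false]
      split_ifs <;> norm_num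

theorem sum_upd (D : OGraph V) (F : V → Finset V) (a : V) (Y : Finset V) :
    ∑ x, hb D (Function.update F a Y x) = ∑ x, hb D (F x) + (hb D Y - hb D (F a)) := by
  have h1 : ∑ x, hb D (Function.update F a Y x) =
      hb D Y + ∑ x ∈ Finset.univ.erase a, hb D (F x) := by
    rw [← Finset.add_sum_erase _ _ (Finset.mem_univ a), Function.update_self]
    congr 1
    refine Finset.sum_congr rfl fun x hx => ?_
    rw [Function.update_of_ne (Finset.ne_of_mem_erase hx)]
  have h2 := Finset.add_sum_erase Finset.univ (fun x => hb D (F x)) (Finset.mem_univ a)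
  linarith

end Count

/-- Admissible pairs of families. -/
structure Fe (D : OGraph V) (P T : V → Finset V) : Prop where
  p : ∀ a b, (a = b ∨ D.arc a b) → b ∈ P a
  t : ∀ a b, (a = b ∨ D.arc a b) → b ∈ T a
  c : ∀ a b, b ∈ P a → a ∈ T b → a = b

theorem no_min [Nonempty V] (D : OGraph V) (hCE : CE D)
    (hG : ∀ X : Finset V, nb D X ≠ X → hb D (nb D X) < hb D X) : False := by
  classical
  have hG' : ∀ X : Finset V, hb D (nb D X) ≤ hb D X := by
    intro X
    by_cases h : nb D X = X
    · rw [h]
    · exact (hG X h).le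
  -- a pair of minimal cost
  obtain ⟨⟨P, T⟩, hPT, hPTmin⟩ := Set.exists_min_image
    {q : (V → Finset V) × (V → Finset V) | Fe D q.1 q.2}
    (fun q => ∑ a, hb D (q.1 a) + ∑ b, hb D (q.2 b)) (Set.toFinite _)
    ⟨(fun a => nb D {a}, fun a => nb D {a}), by
      refine ⟨?_, ?_, ?_⟩
      · intro a b hab
        exact mem_nb.2 ⟨a, Finset.mem_singleton_self a, hab⟩
      · intro a b hab
        exact mem_nb.2 ⟨a, Finset.mem_singleton_self a, hab⟩
      · intro a b h1 h2
        have h1 : b ∈ nb D {a} := h1
        have h2 : a ∈ nb D {b} := h2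
        obtain ⟨y, hy, h1⟩ := mem_nb.1 h1
        obtain ⟨z, hz, h2⟩ := mem_nb.1 h2
        rw [Finset.mem_singleton] at hy hz
        rw [hy] at h1
        rw [hz] at h2
        rcases h1 with h1 | h1
        · exact h1
        · rcases h2 with h2 | h2
          · exact h2.symm
          · exact absurd h2 (D.asymm _ _ h1)⟩
  replace hPT : Fe D P T := hPT
  have hmin : ∀ P' T', Fe D P' T' →
      ∑ a, hb D (P a) + ∑ b, hb D (T b) ≤ ∑ a, hb D (P' a) + ∑ b, hb D (T' b) :=
    fun P' T' h => hPTmin (P', T') h
  -- the complementary rows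
  set U : V → Finset V := fun a => Finset.univ.filter fun b => a = b ∨ a ∉ T b with hU
  have memU : ∀ a b, b ∈ U a ↔ (a = b ∨ a ∉ T b) := by
    intro a b
    simp [hU]
  have hPU : ∀ a, P a ⊆ U a := by
    intro a b hb'
    rw [memU]
    by_cases h : a ∈ T b
    · exact Or.inl (hPT.c a b hb' h)
    · exact Or.inr h
  have hR : ∀ a Y, P a ⊆ Y → Y ⊆ U a → hb D (P a) ≤ hb D Y := by
    intro a Y h1 h2
    have hfe : Fe D (Function.update P a Y) T := by
      refine ⟨?_, hPT.t, ?_⟩
      · intro a' b hab
        by_cases h : a' = a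
        · subst h
          rw [Function.update_self]
          exact h1 (hPT.p a' b hab)
        · rw [Function.update_of_ne h]
          exact hPT.p a' b hab
      · intro a' b hb' hab
        by_cases h : a' = a
        · subst h
          rw [Function.update_self] at hb'
          rcases (memU a' b).1 (h2 hb') with h | h
          · exact h
          · exact absurd hab h
        · rw [Function.update_of_ne h] at hb'
          exact hPT.c a' b hb' hab
    have := hmin _ _ hfe
    rw [sum_upd] at this
    linarith
  have hC : ∀ (b : V) (S : Finset V), (∀ a ∈ S, b ∈ U a ∧ b ∉ P a) →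
      ∃ T' : Finset V, S.card ≤ T'.card ∧
        ∀ z ∈ T', (∃ a ∈ S, a = z ∨ D.arc a z) ∧ b ∈ er D U z := by
    intro b S hS
    have hST : Disjoint (T b) S := by
      rw [Finset.disjoint_left]
      intro a ha haS
      obtain ⟨h1, h2⟩ := hS a haS
      rcases (memU a b).1 h1 with h | h
      · subst h
        exact h2 (hPT.p a a (Or.inl rfl))
      · exact h ha
    have hfe : Fe D P (Function.update T b (T b ∪ S)) := by
      refine ⟨hPT.p, ?_, ?_⟩
      · intro a' b' hab
        by_cases h : a' = b
        · subst h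
          rw [Function.update_self]
          exact Finset.mem_union_left _ (hPT.t a' b' hab)
        · rw [Function.update_of_ne h]
          exact hPT.t a' b' hab
      · intro a' b' hb' hab
        by_cases h : b' = b
        · subst h
          rw [Function.update_self, Finset.mem_union] at hab
          rcases hab with hab | hab
          · exact hPT.c a' b' hb' hab
          · exact absurd hb' (hS a' hab).2
        · rw [Function.update_of_ne h] at hab
          exact hPT.c a' b' hb' hab
    have h1 := hmin _ _ hfe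
    rw [sum_upd] at h1
    refine ⟨nb D S \ nb D (T b), ?_, ?_⟩
    · have h2 : nb D (T b ∪ S) = nb D (T b) ∪ (nb D S \ nb D (T b)) := by
        rw [nb_union, Finset.union_sdiff_self_eq_union]
      have h3 := Finset.card_union_of_disjoint
        (Finset.disjoint_sdiff (s := nb D (T b)) (t := nb D S))
      have h4 := Finset.card_union_of_disjoint hST
      unfold hb at h1
      rw [h2, h3, h4] at h1
      push_cast at h1
      have h5 : (S.card : ℤ) ≤ ((nb D S \ nb D (T b)).card : ℤ) := by linarith
      exact_mod_cast h5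
    · intro z hz
      rw [Finset.mem_sdiff] at hz
      refine ⟨?_, ?_⟩
      · obtain ⟨y, hy, hyz⟩ := mem_nb.1 hz.1
        exact ⟨y, hy, hyz⟩
      · rw [mem_er]
        intro a ha
        rw [memU]
        right
        intro haT
        exact hz.2 (mem_nb.2 ⟨a, haT, ha⟩)
  have hgap := gap D hPU hR hC
  -- the four incidence counts
  have le2' : ∀ a b, b ∈ nb D (er D U a) → a ∈ nb D (er D T b) → a = b := by
    intro a b h1 h2
    obtain ⟨y, hy, hyb⟩ := mem_nb.1 h1
    obtain ⟨z, hz, hza⟩ := mem_nb.1 h2
    have h3 : y ∈ U z := mem_er.1 hy z hza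
    have h4 : z ∈ T y := mem_er.1 hz y hyb
    have h5 : z = y := by
      rcases (memU z y).1 h3 with h | h
      · exact h
      · exact absurd h4 h
    subst h5
    have h6 : z ∈ U a := mem_er.1 hy a (Or.inl rfl)
    rcases (memU a z).1 h6 with h | h
    · subst h
      exact hPT.c a b (hPT.p a b hyb) (mem_er.1 hz b (Or.inl rfl))
    · exact absurd (hPT.t z a hza) h
  have ge1 := count_ge (fun z => er D U z) (fun b => nb D (T b))
    (by
      intro z b
      by_cases h : z ∈ nb D (T b)
      · exact Or.inr h
      · left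
        rw [mem_er]
        intro a ha
        rw [memU]
        right
        intro haT
        exact h (mem_nb.2 ⟨a, haT, ha⟩))
    (by
      intro b
      refine ⟨?_, sub_nb D _ (hPT.t b b (Or.inl rfl))⟩
      rw [mem_er]
      intro a ha
      exact hPU a (hPT.p a b ha))
  have le1 := count_le U T (by
    intro a b h1 h2
    rcases (memU a b).1 h1 with h | h
    · exact h
    · exact absurd h2 h)
  have le2 := count_le (fun a => nb D (er D U a)) (fun b => nb D (er D T b)) le2'
  have ge2 := count_ge (fun z => nb D (U z)) (fun b => er D T b)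
    (by
      intro z b
      by_cases h : b ∈ nb D (U z)
      · exact Or.inl h
      · right
        rw [mem_er]
        intro b' hb'
        by_contra hz
        exact h (mem_nb.2 ⟨b', (memU z b').2 (Or.inr hz), hb'⟩))
    (by
      intro b
      refine ⟨sub_nb D _ (hPU b (hPT.p b b (Or.inl rfl))), ?_⟩
      rw [mem_er]
      intro b' hb'
      exact hPT.t b' b hb')
  -- the new pair
  have hfe : Fe D (fun a => nb D (er D P a)) (fun b => nb D (er D T b)) := by
    refine ⟨?_, ?_, ?_⟩
    · intro a b hab
      exact mem_nb.2 ⟨a, mem_er.2 fun a' ha' => hPT.p a' a ha', hab⟩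
    · intro a b hab
      exact mem_nb.2 ⟨a, mem_er.2 fun a' ha' => hPT.t a' a ha', hab⟩
    · intro a b h1 h2
      exact le2' a b (nb_mono D (er_mono D hPU a) h1) h2
  have hnew := hmin _ _ hfe
  -- the cost of the eroded pair
  have hcost : ∑ a, hb D (er D P a) + ∑ b, hb D (er D T b) ≤
      ∑ a, hb D (P a) + ∑ b, hb D (T b) := by
    simp only [hb, Finset.sum_sub_distrib] at hgap ⊢
    linarith
  have hzero : ∀ a, (hb D (er D P a) - hb D (nb D (er D P a)) = 0) ∧
      (hb D (er D T a) - hb D (nb D (er D T a)) = 0) := by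
    have hs : ∑ a, ((hb D (er D P a) - hb D (nb D (er D P a))) +
        (hb D (er D T a) - hb D (nb D (er D T a)))) ≤ 0 := by
      simp only [Finset.sum_add_distrib, Finset.sum_sub_distrib]
      linarith
    have hn : ∀ a ∈ (Finset.univ : Finset V), 0 ≤ (hb D (er D P a) - hb D (nb D (er D P a))) +
        (hb D (er D T a) - hb D (nb D (er D T a))) := by
      intro a _
      have := hG' (er D P a)
      have := hG' (er D T a)
      linarith
    have h0 := (Finset.sum_eq_zero_iff_of_nonneg hn).1
      (le_antisymm hs (Finset.sum_nonneg hn))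
    intro a
    have := h0 a (Finset.mem_univ a)
    have := hG' (er D P a)
    have := hG' (er D T a)
    constructor <;> linarith
  have hclP : ∀ a, nb D (er D P a) = er D P a := by
    intro a
    by_contra h
    have := hG _ h
    have := (hzero a).1
    linarith
  have hclT : ∀ a, nb D (er D T a) = er D T a := by
    intro a
    by_contra h
    have := hG _ h
    have := (hzero a).2
    linarith
  -- a minimal nonempty closed set
  obtain ⟨C, ⟨hCne, hCcl⟩, hCmin⟩ := Set.exists_min_image
    {C : Finset V | C.Nonempty ∧ nb D C = C} (fun C => C.card) (Set.toFinite _)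
    ⟨Finset.univ, Finset.univ_nonempty, Finset.Subset.antisymm (Finset.subset_univ _) (sub_nb D _)⟩
  obtain ⟨b, hbC⟩ := hCne
  have hN : (N1 D b).Nonempty := by
    rw [← Finset.card_pos]
    exact lt_of_le_of_lt (Nat.zero_le _) (hCE b)
  obtain ⟨b', hb'⟩ := hN
  rw [mem_N1] at hb'
  have hb'C : b' ∈ C := by
    rw [← hCcl]
    exact mem_nb.2 ⟨b, hbC, Or.inr hb'⟩
  have hb'Y : b' ∈ er D T b' := mem_er.2 fun a ha => hPT.t a b' ha
  have hbX : b ∈ er D P b := mem_er.2 fun a ha => hPT.p a b ha
  have hsub : C ∩ er D T b' = C := by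
    apply Finset.eq_of_subset_of_card_le Finset.inter_subset_left
    apply hCmin
    refine ⟨⟨b', Finset.mem_inter.2 ⟨hb'C, hb'Y⟩⟩, ?_⟩
    apply Finset.Subset.antisymm _ (sub_nb D _)
    intro x hx
    refine Finset.mem_inter.2 ⟨?_, ?_⟩
    · rw [← hCcl]
      exact nb_mono D Finset.inter_subset_left hx
    · rw [← hclT b']
      exact nb_mono D Finset.inter_subset_right hx
  have hbY : b ∈ er D T b' := by
    have : b ∈ C ∩ er D T b' := by
      rw [hsub]
      exact hbC
    exact (Finset.mem_inter.1 this).2
  have hb'X : b' ∈ er D P b := by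
    rw [← hclP b]
    exact mem_nb.2 ⟨b, hbX, Or.inr hb'⟩
  have := hfe.c b b' (sub_nb D _ hb'X) (sub_nb D _ hbY)
  subst this
  exact D.loopless b hb'

open Classical in
/-- The number of arcs. -/
noncomputable def arcs (D : OGraph V) : ℕ :=
  (Finset.univ.filter fun p : V × V => D.arc p.1 p.2).card

theorem no_CE [Nonempty V] : ∀ (n : ℕ) (D : OGraph V), arcs D = n → ¬ CE D := by
  classical
  intro n
  induction n using Nat.strong_induction_on with
  | _ n ih =>
    intro D hn hCE
    refine no_min D hCE (expand D hCE ?_)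
    rintro X K ⟨u, hu, v, huv, hv⟩
    refine ih _ ?_ _ rfl
    rw [← hn]
    unfold arcs
    apply Finset.card_lt_card
    rw [Finset.ssubset_iff_of_subset]
    · refine ⟨(u, v), Finset.mem_filter.2 ⟨Finset.mem_univ _, huv⟩, ?_⟩
      intro h
      exact hv ((Finset.mem_filter.1 h).2.2 hu)
    · intro p hp
      exact Finset.mem_filter.2 ⟨Finset.mem_univ _, (Finset.mem_filter.1 hp).2.1⟩

/-- **Seymour's second neighbourhood conjecture.** -/
theorem snc [Nonempty V] (D : OGraph V) : ∃ v, (N1 D v).card ≤ (N2 D v).card := by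
  by_contra h
  refine no_CE (arcs D) D rfl fun v => ?_
  by_contra hv
  exact h ⟨v, not_lt.1 hv⟩

end Vale.Agent.P038.H310
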